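import Vale.Agent.P196.Tile.Facts.Vert

/-!
P196, module D: the table columns, and all the rules of a child and the child below it.
-/

namespace Vale.Agent.P196.Tile

open ChildRules

section

variable {L : ℕ} {τ : ℕ → Bool} {b b' : ℕ → Quad} {X Y : ℕ}

lemma claims_zone_x {Z : ℕ} {m : ℕ} (hm : m ≤ 7) (hz : IsZone L (X % H L) m) (b₁ : ℕ → Quad) :
    (child L τ b₁ X Z).x = X % H L := by
  rw [child_x, if_pos (knownX_of_col hz.1 hm)]

lemma zone_h {m : ℕ} (hL : L₀ ≤ L) (hm : m = 4 ∨ m = 6) (hz : IsZone L (X % H L) m) {Z : ℕ}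
    (b₁ : ℕ → Quad) (hw : IsWire L (Z % H L)) (hk : hi L (Z % H L) ≤ lastK L) :
    (child L τ b₁ X Z).fin.h = b₁ (hi L (Z % H L)) := by
  funext j
  rw [child_h, if_pos]
  have hM := eight_lt_M hL
  have e := coord_eq L (X % H L)
  rw [hz.1.1, hz.1.2] at e
  have h4 : lo L (X % H L) < M L := Nat.mod_lt _ (M_pos L)
  refine ⟨hw, hk, fun h0 => ?_, fun _ hc => ?_⟩
  · rcases hm with rfl | rfl <;> omega
  · exfalso
    unfold cutX at hc
    rcases hm with rfl | rfl <;> omega

lemma childV_eq (hL : L₀ ≤ L) (hY : Y < side L) (hb : VBits Y b b') :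
    (child L τ b X Y).fin.eq = eqNext (claims L (child L τ b X Y))
      (claims L (child L τ b' X (pred' L Y))) (child L τ b' X (pred' L Y)).fin.eq
      (child L τ b' X (pred' L Y)).fin.h := by
  unfold eqNext
  by_cases hs : (claims L (child L τ b X Y)).zoneAt 4 = true
  swap
  · rw [if_neg hs, child_eqf,
      if_neg fun h => hs ((claims_zoneAt L τ b X Y (by norm_num)).2 h.1)]
  rw [if_pos hs]
  rw [claims_zoneAt L τ b X Y (by norm_num)] at hs
  obtain ⟨hn0, -, -, -, -, -, hM0⟩ := rows_zero hL
  have hA : A = 1024 := rfl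
  have hYB : A < YB := by unfold YB; omega
  rcases row_cases hY hb with ⟨h1, h2⟩ | ⟨y, h2, h1, rfl, -⟩
  · rw [child_eqf, h1, if_neg fun h => hM0 h.2.1, if_pos ((claims_y0 L τ b X Y).2 h1)]
  rw [if_neg fun h => by rw [claims_y0, h1] at h; omega]
  obtain ⟨hww, hr1, hr2, hr3⟩ := rows_succ hL y
  by_cases hw : IsWire L (y + 1)
  · obtain ⟨e, ei, h0k, hpk⟩ := hr2 hw
    have hy : ¬ IsWire L y := fun h => hww h hw
    by_cases hk : hi L (y + 1) = 0
    · rw [if_pos (by
        rw [Bool.and_eq_true, decide_eq_true_iff, claims_wire, claims_yhC, h1, hk]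
        exact ⟨hw, by omega⟩)]
      have hlt := h0k hk
      have e0 : rowsBelow L (y + 1) = 0 := by rw [e, rowsBelow, if_pos hlt]
      rw [child_eqf, h1, if_pos ⟨hs, M_le_of_wire hw, by omega⟩, e0]
      simp
    · rw [if_neg fun h => by
        rw [Bool.and_eq_true, decide_eq_true_iff, claims_yhC, h1] at h
        omega, if_neg fun h => by rw [claims_wire, h2] at h; exact hy h,
        child_eqf, child_eqf, h1, h2, e]
      have := (hpk (by omega)).1
      simp only [this, show M L ≤ y + 1 by omega]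
  rw [if_neg fun h => by
    rw [Bool.and_eq_true, decide_eq_true_iff, claims_wire, h1] at h
    exact hw h.1]
  by_cases hy : IsWire L y
  swap
  · obtain ⟨e, e2, -⟩ := hr3 hy hw
    rw [if_neg fun h => by rw [claims_wire, h2] at h; exact hy h, child_eqf, child_eqf, h1, h2, e]
    simp only [e2]
  obtain ⟨-, er, hM, -, er'⟩ := hr1 hy
  rw [if_pos ((claims_wire L τ b X _).2 (h2 ▸ hy)), claims_yhC, h2]
  by_cases hk : hi L y < A - 1
  swap
  · rw [if_neg (by omega), child_eqf, h1, if_neg]
    rw [er']
    omega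
  rw [if_pos (by omega), child_eqf, child_eqf, h1, h2, er', er,
    if_pos ⟨hs, by omega, by omega⟩, if_pos ⟨hs, hM, by omega⟩, Option.map_some, eq_step (by omega)]
  refine congrArg some (congrArg (_ && ·) ?_)
  have hh := zone_h (τ := τ) hL (Or.inl rfl) hs (Z := pred' L Y) b (h2 ▸ hy)
    (by rw [h2]; unfold lastK; omega)
  rw [h2] at hh
  rw [zoneMatch_iff (by omega) b _ hh]
  have hq : (claims L (child L τ b X (pred' L Y))).cm.q = fun j : Fin 4 =>
      decide (min (hi L y) YB < A) &&
        (lo L (X % H L)).testBit (4 * min (hi L y) YB + j.val + 2) := by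
    simp only [claims, child_y, h2, claims_zone_x (by norm_num) hs]
  rw [hq]

lemma childV_look (hL : L₀ ≤ L) (hY : Y < side L) (hb : VBits Y b b') :
    (child L τ b X Y).fin.look = lookNext (claims L (child L τ b X Y))
      (claims L (child L τ b' X (pred' L Y))) (child L τ b' X (pred' L Y)).fin.look
      (child L τ b' X (pred' L Y)).fin.h := by
  unfold lookNext
  by_cases hs : (claims L (child L τ b X Y)).zoneAt 6 = true
  swap
  · rw [if_neg hs, child_look,
      if_neg fun h => hs ((claims_zoneAt L τ b X Y (by norm_num)).2 h.1)]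
  rw [if_pos hs]
  rw [claims_zoneAt L τ b X Y (by norm_num)] at hs
  obtain ⟨hn0, -, -, -, -, -, hM0⟩ := rows_zero hL
  have hA : A = 1024 := rfl
  have hB : xlRow (B - 1) < YB := by unfold YB xlRow; omega
  rcases row_cases hY hb with ⟨h1, h2⟩ | ⟨y, h2, h1, rfl, -⟩
  · rw [child_look, h1, if_neg fun h => hM0 h.2.1, if_pos ((claims_y0 L τ b X Y).2 h1)]
  rw [if_neg fun h => by rw [claims_y0, h1] at h; omega]
  obtain ⟨hww, hr1, hr2, hr3⟩ := rows_succ hL y
  by_cases hw : IsWire L (y + 1)
  · obtain ⟨e, ei, h0k, hpk⟩ := hr2 hw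
    have hy : ¬ IsWire L y := fun h => hww h hw
    by_cases hk : hi L (y + 1) = 0
    · rw [if_pos (by
        rw [Bool.and_eq_true, decide_eq_true_iff, claims_wire, claims_yhC, h1, hk]
        exact ⟨hw, by omega⟩)]
      have hlt := h0k hk
      have e0 : rowsBelow L (y + 1) = 0 := by rw [e, rowsBelow, if_pos hlt]
      rw [child_look, h1, if_pos ⟨hs, M_le_of_wire hw, by omega⟩, e0, lookAt_zero]
    · rw [if_neg fun h => by
        rw [Bool.and_eq_true, decide_eq_true_iff, claims_yhC, h1] at h
        omega, if_neg fun h => by rw [claims_wire, h2] at h; exact hy h,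
        child_look, child_look, h1, h2, e]
      have := (hpk (by omega)).1
      simp only [this, show M L ≤ y + 1 by omega]
  rw [if_neg fun h => by
    rw [Bool.and_eq_true, decide_eq_true_iff, claims_wire, h1] at h
    exact hw h.1]
  by_cases hy : IsWire L y
  swap
  · obtain ⟨e, e2, -⟩ := hr3 hy hw
    rw [if_neg fun h => by rw [claims_wire, h2] at h; exact hy h, child_look, child_look, h1, h2,
      e]
    simp only [e2]
  obtain ⟨-, er, hM, -, er'⟩ := hr1 hy
  rw [if_pos ((claims_wire L τ b X _).2 (h2 ▸ hy)), claims_yhC, h2]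
  by_cases hk : hi L y < xlRow (B - 1)
  swap
  · rw [if_neg (by omega), child_look, h1, if_neg]
    rw [er']
    omega
  rw [if_pos (by omega), child_look, child_look, h1, h2, er', er,
    if_pos ⟨hs, by omega, by omega⟩, if_pos ⟨hs, hM, by omega⟩, Option.map_some,
    lookAt_succ hk]
  have hh := zone_h (τ := τ) hL (Or.inr rfl) hs (Z := pred' L Y) b (h2 ▸ hy)
    (by
      have h50 : 50000 ≤ L := le_L₀.trans hL
      rw [h2]; unfold lastK; unfold xlRow B at hk; omega)
  rw [h2] at hh
  have hq : (claims L (child L τ b X (pred' L Y))).cm.ql =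
      (decide (A ≤ min (hi L y) YB) && decide (lidx (min (hi L y) YB) < B) &&
        (lo L (X % H L)).testBit (lidx (min (hi L y) YB))) := by
    simp only [claims, child_y, h2, claims_zone_x (by norm_num) hs]
  rw [hh, hq, claims_yhMod, h2]

theorem childV (hL : L₀ ≤ L) (hY : Y < side L) (hb : VBits Y b b') :
    VFacts (cell L (child L τ b X Y)) (cell L (child L τ b' X (pred' L Y))) where
  xk h0 := by
    have hy : Y % H L ≠ 0 := fun h => by
      rw [(claims_y0 L τ b X Y).2 h] at h0
      exact Bool.noConfusion h0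
    rw [Bool.eq_iff_iff, claims_xk, child_live, Bool.or_eq_true, Bool.and_eq_true,
      decide_eq_true_iff]
    constructor
    · rintro (h | h | h)
      · exact absurd h hy
      · have hk : (claims L (child L τ b' X (pred' L Y))).xk = true :=
          (claims_xk L τ b' X _).2 (Or.inr (Or.inl h))
        exact Or.inl ⟨hk, (claims_band L τ b' X _ hk).2 h⟩
      · exact Or.inr h
    · rintro (⟨hk, hd⟩ | h)
      · exact Or.inr (Or.inl ((claims_band L τ b' X _ hk).1 hd))
      · exact Or.inr (Or.inr h)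
  qx h := by
    simp only [Bool.or_eq_true, claims_x0, claims_cut] at h
    simp only [child_qx]
    rw [if_pos (by tauto), if_pos (by tauto)]
  qy h := by
    simp only [claims_colQ] at h
    simp only [child_qy]
    have hd : ∀ z : ℕ, z = 0 ∨ (IsCol L (X % H L) 2 ∧ lo L (X % H L) = 0) ∨ IsHalfRow L z :=
      fun z => Or.inr (Or.inl h)
    rw [if_pos (hd _), if_pos (hd _)]
    rcases pred_cases hY with ⟨h0, h1, -, h3⟩ | ⟨h0, h1, -, h3⟩ | ⟨h1, -, -, h3⟩
    · rw [if_pos ((claims_y0 L τ b X Y).2 h1)]
      have : ¬ H L ≤ Y := by have := H_pos L; omega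
      simp [this, h3]
    · rw [if_pos ((claims_y0 L τ b X Y).2 h1)]
      subst h0
      simp [not_le.2 h3]
    · rw [if_neg fun h => by rw [claims_y0] at h; omega]
      simp [h3]
  vb h := childV_vb hL hY hb (by simpa only [claims_bundle] using h)
  carry := childV_carry hL hY hb
  eq := childV_eq hL hY hb
  look := childV_look hL hY hb

end

end Vale.Agent.P196.Tile
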