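import Vale.Agent.P196.Tile.Facts.Rows

/-!
P196, module D: positions of special columns and rows, and the position before a position.
-/

namespace Vale.Agent.P196.Tile

open ChildRules

lemma eight_lt_M {L : ℕ} (hL : L₀ ≤ L) : 4 * B + 16 < M L := by
  have h50 : 50000 ≤ L := le_L₀.trans hL
  have h2 : L < 2 ^ L := Nat.lt_two_pow_self
  unfold M B A
  omega

lemma coord_eq (L y : ℕ) : y = M L ^ 2 * hi L y + M L * mid L y + lo L y := by
  have h1 := Nat.div_add_mod y (M L)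
  have h2 := Nat.div_add_mod (y / M L) (M L)
  have h3 : y / M L / M L = y / M L ^ 2 := by rw [Nat.div_div_eq_div_mul, sq]
  rw [h3] at h2
  rw [hi, mid, lo, sq, mul_assoc, ← mul_add]
  rw [sq] at h2
  rw [h2, h1]

lemma coord_of {L a c e : ℕ} (hc : c < M L) (he : e < M L) :
    hi L (M L ^ 2 * a + M L * c + e) = a ∧ mid L (M L ^ 2 * a + M L * c + e) = c ∧
      lo L (M L ^ 2 * a + M L * c + e) = e := by
  have hM := M_pos L
  have r : M L ^ 2 * a + M L * c + e = e + M L * (M L * a + c) := by ring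
  have hd : (M L ^ 2 * a + M L * c + e) / M L = M L * a + c := by
    rw [r, Nat.add_mul_div_left _ _ hM, Nat.div_eq_of_lt he, Nat.zero_add]
  refine ⟨?_, ?_, ?_⟩
  · show _ / M L ^ 2 = a
    rw [sq, ← Nat.div_div_eq_div_mul, ← sq, hd, add_comm, Nat.add_mul_div_left _ _ hM,
      Nat.div_eq_of_lt hc, Nat.zero_add]
  · show _ / M L % M L = c
    rw [hd, add_comm, Nat.add_mul_mod_self_left, Nat.mod_eq_of_lt hc]
  · show _ % M L = e
    rw [r, Nat.add_mul_mod_self_left, Nat.mod_eq_of_lt he]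

/-- The column with middle part `m` and low part `0`. -/
lemma col0_iff {L x m : ℕ} (hm : m < M L) :
    IsCol L x m ∧ lo L x = 0 ↔ x = M L * m := by
  constructor
  · rintro ⟨⟨h1, h2⟩, h3⟩
    have := coord_eq L x
    rw [h1, h2, h3, mul_zero, zero_add, add_zero] at this
    exact this
  · rintro rfl
    obtain ⟨h1, h2, h3⟩ := coord_of (L := L) (a := 0) hm (M_pos L)
    simp only [mul_zero, zero_add, add_zero] at h1 h2 h3
    exact ⟨⟨h1, h2⟩, h3⟩

lemma cut_iff {L x : ℕ} (hL : L₀ ≤ L) : IsCol L x 7 ∧ lo L x = 0 ↔ x = cutX L := by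
  rw [col0_iff (by have := eight_lt_M hL; omega), cutX, Nat.mul_comm]

lemma halfRow_iff {L y : ℕ} (hL : L₀ ≤ L) : IsHalfRow L y ↔ y = halfY L := by
  have hM := eight_lt_M hL
  constructor
  · rintro ⟨h1, h2, h3⟩
    have := coord_eq L y
    rw [h1, h2, h3, add_zero] at this
    rw [halfY, this]
    ring
  · rintro rfl
    obtain ⟨h1, h2, h3⟩ := coord_of (L := L) (a := M L / 2) (show 2 < M L by omega) (M_pos L)
    rw [show M L ^ 2 * (M L / 2) + M L * 2 + 0 = halfY L by unfold halfY; ring] at h1 h2 h3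
    exact ⟨h3, h2, h1⟩

lemma M_le_halfY {L : ℕ} : M L ≤ halfY L := by unfold halfY; omega

/-- A coordinate and its predecessor. -/
lemma pred_cases {L Y : ℕ} (hY : Y < side L) :
    (Y = 0 ∧ Y % H L = 0 ∧ pred' L Y % H L = H L - 1 ∧ H L ≤ pred' L Y) ∨
    (Y = H L ∧ Y % H L = 0 ∧ pred' L Y % H L = H L - 1 ∧ pred' L Y < H L) ∨
    (0 < Y % H L ∧ pred' L Y % H L + 1 = Y % H L ∧ pred' L Y + 1 = Y ∧
      (H L ≤ Y ↔ H L ≤ pred' L Y)) := by
  have hH := H_pos L
  have hs : side L = 2 * H L := rfl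
  by_cases h0 : Y = 0
  · subst h0
    refine Or.inl ⟨rfl, Nat.zero_mod _, ?_, ?_⟩ <;> rw [pred'_zero]
    · rw [show side L - 1 = (H L - 1) + H L by omega, Nat.add_mod_right,
        Nat.mod_eq_of_lt (by omega)]
    · omega
  rw [pred'_succ L Y hY h0]
  by_cases h1 : Y = H L
  · subst h1
    exact Or.inr (Or.inl ⟨rfl, Nat.mod_self _, Nat.mod_eq_of_lt (by omega), by omega⟩)
  refine Or.inr (Or.inr ?_)
  rcases Nat.lt_or_ge Y (H L) with h | h
  · rw [Nat.mod_eq_of_lt h, Nat.mod_eq_of_lt (show Y - 1 < H L by omega)]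
    omega
  · rw [Nat.mod_eq_sub_mod h, Nat.mod_eq_of_lt (show Y - H L < H L by omega),
      Nat.mod_eq_sub_mod (show H L ≤ Y - 1 by omega),
      Nat.mod_eq_of_lt (show Y - 1 - H L < H L by omega)]
    omega

end Vale.Agent.P196.Tile
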