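import Vale.Agent.P196.Tile.Facts.Defs
import Vale.Agent.P196.Tile.Facts.Coords

/-!
P196, module D: the fields of a child, and the rules of a single child.
-/

namespace Vale.Agent.P196.Tile

open ChildRules

/-- The finite data of a state. -/
abbrev cell (L : ℕ) (t : St) : Cell := (t.fin, claims L t)

section

variable (L : ℕ) (τ : ℕ → Bool) (b : ℕ → Quad) (X Y : ℕ)

lemma child_qx : (child L τ b X Y).fin.qx =
    if X % H L = 0 ∨ (IsCol L (X % H L) 7 ∧ lo L (X % H L) = 0) ∨
      (lo L (Y % H L) = 0 ∧ mid L (Y % H L) = 2 ∧ hi L (Y % H L) = 0)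
    then some (decide (H L ≤ X)) else none := rfl

lemma child_qy : (child L τ b X Y).fin.qy =
    if Y % H L = 0 ∨ (IsCol L (X % H L) 2 ∧ lo L (X % H L) = 0) ∨ IsHalfRow L (Y % H L)
    then some (decide (H L ≤ Y)) else none := rfl

lemma child_h (j : Fin 4) : (child L τ b X Y).fin.h j =
    if IsWire L (Y % H L) ∧ hi L (Y % H L) ≤ lastK L ∧
      (X % H L = 0 → decide (H L ≤ X) = false → (j = 1 ∨ j = 3)) ∧
      (decide (H L ≤ X) = true → cutX L < X % H L → (j = 0 ∨ j = 2))
    then b (hi L (Y % H L)) j else false := rfl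

lemma child_vb (j : Fin 4) : (child L τ b X Y).fin.vb j =
    if IsBundle L (X % H L) ∧ lo L (X % H L) / 2 ≤ lastK L ∧
      (Y % H L = 0 → decide (H L ≤ Y) = false → (j = 2 ∨ j = 3)) ∧
      (decide (H L ≤ Y) = true → halfY L < Y % H L → (j = 0 ∨ j = 1))
    then b (lo L (X % H L) / 2) j else false := rfl

lemma child_carry : (child L τ b X Y).fin.carry =
    if IsCol L (X % H L) 3 ∧ lo L (X % H L) = 0 ∧ M L ≤ Y % H L ∧ AF ≤ rowIdx L (Y % H L) ∧
      rowIdx L (Y % H L) ≤ lastK L
    then some (scan b (rowIdx L (Y % H L))) else none := rfl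

lemma child_eqf : (child L τ b X Y).fin.eq =
    if IsZone L (X % H L) 4 ∧ M L ≤ Y % H L ∧ rowsBelow L (Y % H L) ≤ A - 1
    then some (decide (∀ k' < rowsBelow L (Y % H L), zoneMatch L (X % H L) k' b = true))
    else none := rfl

lemma child_v : (child L τ b X Y).fin.v =
    if (IsZone L (X % H L) 4 ∧ A - 1 ≤ hi L (Y % H L)) ∨ IsZone L (X % H L) 6
    then τ (lo L (X % H L)) else false := rfl

lemma child_look : (child L τ b X Y).fin.look =
    if IsZone L (X % H L) 6 ∧ M L ≤ Y % H L ∧ rowsBelow L (Y % H L) ≤ xlRow (B - 1)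
    then some (lookAt L (X % H L) (rowsBelow L (Y % H L)) b) else none := rfl

lemma child_live : (child L τ b X Y).fin.live = decide (IsLive L (Y % H L)) := rfl

lemma claims_zone : (claims L (child L τ b X Y)).zone = true ↔
    (IsZone L (X % H L) 4 ∧ A - 1 ≤ hi L (Y % H L)) ∨ IsZone L (X % H L) 6 := by
  rw [Claims.zone_eq, Bool.or_eq_true, Bool.and_eq_true, decide_eq_true_iff,
    claims_zoneAt L τ b X Y (by norm_num), claims_zoneAt L τ b X Y (by norm_num), claims_yhC]
  have h : A - 1 ≤ YB := by unfold YB; omega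
  refine or_congr (and_congr Iff.rfl ?_) Iff.rfl
  omega

lemma claims_diag (hx : IsBundle L (X % H L)) :
    (claims L (child L τ b X Y)).cm.diag = true ↔
      lo L (X % H L) = 2 * hi L (Y % H L) := by
  have hk : knownX L (X % H L) (Y % H L) = true := knownX_of_col hx.1 (by norm_num)
  simp only [claims, decide_eq_true_iff]
  simp only [child_x, child_y, if_pos hk]

end

lemma lastK_bound {L : ℕ} (hL : L₀ ≤ L) : 4 * lastK L + 16 < M L := by
  have h50 : 50000 ≤ L := le_L₀.trans hL
  have h2 : L - 10 < 2 ^ (L - 10) := Nat.lt_two_pow_self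
  have hbig : M L = 1024 * 2 ^ (L - 10) := by
    rw [M, show (1024 : ℕ) = 2 ^ 10 by norm_num, ← pow_add, Nat.add_sub_cancel' (by omega)]
  have hA : A = 1024 := rfl
  unfold lastK
  omega

/-- A wire row in use lies below the middle row. -/
lemma live_lt_halfY {L y : ℕ} (hL : L₀ ≤ L) (h : IsLive L y) : y < halfY L := by
  have h1 := wire_eq' h.1
  have h2 := lastK_bound hL
  have h3 : hi L y + 1 ≤ M L / 2 := by have := h.2; omega
  have h4 : (hi L y + 1) * M L ^ 2 ≤ M L / 2 * M L ^ 2 := Nat.mul_le_mul_right _ h3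
  have h5 := M_le_sq L
  rw [Nat.add_mul, one_mul, Nat.mul_comm] at h4
  unfold halfY
  omega
where
  wire_eq' {L y : ℕ} (h : IsWire L y) : y = M L ^ 2 * hi L y + M L := by
    have := coord_eq L y
    rwa [h.1, h.2, mul_one, add_zero] at this

/-- The rules of a single child. -/
theorem childP {L : ℕ} (hL : L₀ ≤ L) (τ : ℕ → Bool) (b : ℕ → Quad) (X Y : ℕ) :
    PFacts (cell L (child L τ b X Y)) where
  qx_some := by
    rw [Bool.eq_iff_iff]
    simp only [child_qx, Bool.or_eq_true, claims_x0, claims_cut, claims_rowQ]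
    split_ifs with h <;> simp only [Option.isSome_some, Option.isSome_none, Bool.false_eq_true] <;>
      tauto
  qy_some := by
    rw [Bool.eq_iff_iff]
    simp only [child_qy, Bool.or_eq_true, claims_y0, claims_colQ, claims_halfRow]
    split_ifs with h <;> simp only [Option.isSome_some, Option.isSome_none, Bool.false_eq_true] <;>
      tauto
  y0_xk h := by
    simp only [claims_y0] at h
    exact (claims_xk L τ b X Y).2 (Or.inl h)
  live_wire h := by
    simp only [child_live, decide_eq_true_iff] at h
    exact (claims_wire L τ b X Y).2 h.1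
  live_low hw hk := by
    simp only [claims_wire, claims_yhC] at hw hk
    simp only [child_live, decide_eq_true_iff]
    refine ⟨hw, ?_⟩
    unfold YB lastK AF A at *
    omega
  live_scan hw hs hk := by
    simp only [claims_wire, claims_scan, claims_yhC] at hw hs hk
    simp only [child_live, child_carry]
    have hi1 := rowIdx_wire hw
    by_cases h : IsLive L (Y % H L)
    · rw [if_pos ⟨hs.1, hs.2, M_le_of_wire hw, by omega, by rw [hi1]; exact h.2⟩]
      simp [h]
    · rw [if_neg fun hh => h ⟨hw, by rw [← hi1]; exact hh.2.2.2.2⟩]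
      simp [h]
  h_zero hl j := by
    simp only [child_live, decide_eq_false_iff_not] at hl
    simp only [child_h]
    exact if_neg fun h => hl ⟨h.1, h.2.1⟩
  vb_zero hb j := by
    rw [child_vb, if_neg]
    intro h
    rw [(claims_bundle L τ b X Y).2 h.1] at hb
    exact Bool.noConfusion hb
  diag hw hb hd := by
    simp only [claims_wire, claims_bundle] at hw hb hd
    rw [claims_diag L τ b X Y hb] at hd
    funext j
    rw [child_h, child_vb, show lo L (X % H L) / 2 = hi L (Y % H L) by omega]
    have hx0 : X % H L ≠ 0 := fun h0 => by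
      have := hb.1.2
      simp [h0, mid] at this
    have hy0 : Y % H L ≠ 0 := fun h0 => by
      have := hw.2
      simp [h0, mid] at this
    have hcut : X % H L ≤ cutX L := by
      have := coord_eq L (X % H L)
      rw [hb.1.1, hb.1.2] at this
      have h4 : lo L (X % H L) < M L := Nat.mod_lt _ (M_pos L)
      unfold cutX
      omega
    by_cases hk : hi L (Y % H L) ≤ lastK L
    · have hlt := live_lt_halfY hL ⟨hw, hk⟩
      rw [if_pos ⟨hw, hk, fun e => absurd e hx0, fun _ e => absurd e (by omega)⟩,
        if_pos ⟨hb, hk, fun e => absurd e hy0, fun _ e => absurd e (by omega)⟩]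
    · rw [if_neg fun h => hk h.2.1, if_neg fun h => hk h.2.1]
  v_zone hz := by
    rw [child_v, if_neg]
    intro h
    rw [(claims_zone L τ b X Y).2 h] at hz
    exact Bool.noConfusion hz

end Vale.Agent.P196.Tile
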