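import Vale.Agent.P196.Tile.Preds

/-!
P196, module D: the finite transition rules obeyed by neighbouring children.

They are read on a tile alone (`PFacts`), on a tile and the tile below it (`VFacts`), and on a tile
and the tile on its left (`HFacts`). The states of the scanning column and of the table columns are
functions of the state one row below, so the rules determine everything from the bits shown.
-/

namespace Vale.Agent.P196.Tile

/-- The finite data of one tile. -/
abbrev Cell := Fin' × Claims

/-- The scanning step at a row with saturated index `k`, index modulo eight `m`, and bits `q`. -/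
noncomputable def Carry.stepRow (c : Carry) (k m : ℕ) (q : Quad) : Carry :=
  if k < AF then c
  else if k < A - 2 then c.readClaim (k - AF) q
  else if k < A then c
  else c.readNum ⟨m % 8, Nat.mod_lt _ (by norm_num)⟩ q

/-- The lookup step at a row with index `k`: `q` is the bit of the parent, `ql` that of the column. -/
def Look.stepRow (l : Look) (k m : ℕ) (q ql : Bool) : Look where
  copy := ⟨(l.copy.val + if AF ≤ k ∧ k < A - 2 ∧ q = true then 2 ^ (k - AF) else 0) %
      2 ^ (A - 2 - AF), Nat.mod_lt _ (Nat.two_pow_pos _)⟩
  vv := if k = 0 then q else l.vv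
  eq := l.eq && (!(decide (A ≤ k) && decide (m % 8 = 0)) || (q == ql))

/-- The scanning column stops at this wire row. -/
def endPhase (t d : Claims) : Bool :=
  decide (t.cy.yhMod.val = 0) && decide (A < t.cy.yhC.val) && t.cm.u0 && d.cm.u0

/-- The state of the scanning column from the state below and the bits shown. -/
noncomputable def carryNext (t d : Claims) (dc : Option Carry) (q : Quad) : Option Carry :=
  if t.isScan then
    if t.isWire then
      if t.cy.yhC.val < AF then none
      else if t.cy.yhC.val = AF then some (Carry.init.stepRow AF t.cy.yhMod.val q)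
      else if endPhase t d then none
      else dc.map fun c => c.stepRow t.cy.yhC.val t.cy.yhMod.val q
    else if t.isY0 then none else dc
  else none

/-- The state of the equality column from the state below. -/
def eqNext (t d : Claims) (de : Option Bool) (dh : Quad) : Option Bool :=
  if t.zoneAt 4 then
    if t.isY0 then none
    else if t.isWire && decide (t.cy.yhC.val = 0) then some true
    else if d.isWire then
      (if d.cy.yhC.val < A - 1 then de.map fun e => e && decide (dh = d.cm.q) else none)
    else de
  else none

/-- The state of the lookup column from the state below. -/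
def lookNext (t d : Claims) (dl : Option Look) (dh : Quad) : Option Look :=
  if t.zoneAt 6 then
    if t.isY0 then none
    else if t.isWire && decide (t.cy.yhC.val = 0) then some ⟨0, false, true⟩
    else if d.isWire then
      (if d.cy.yhC.val < xlRow (B - 1) then
        dl.map fun l => l.stepRow d.cy.yhC.val d.cy.yhMod.val (dh 0) d.cm.ql
      else none)
    else dl
  else none

/-- The bits of a bundle column from the tile below. -/
def VbRule (t d : Cell) : Prop :=
  if t.2.isY0 = true ∧ t.1.qy = some false then
    t.1.vb = ![false, false, d.1.vb 0, d.1.vb 1]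
  else if d.2.halfRow = true ∧ d.1.qy = some true then
    t.1.vb = ![d.1.vb 0, d.1.vb 1, false, false]
  else if d.2.isY0 = true ∧ d.1.qy = some false then
    t.1.vb 2 = d.1.vb 2 ∧ t.1.vb 3 = d.1.vb 3
  else t.1.vb = d.1.vb

/-- The bits of a wire row from the tile on the left. -/
def HRule (t l : Cell) : Prop :=
  if t.2.x0 = true ∧ t.1.qx = some false then
    t.1.h = ![false, l.1.h 0, false, l.1.h 2]
  else if l.2.cut = true ∧ l.1.qx = some true then
    t.1.h = ![l.1.h 0, false, l.1.h 2, false]
  else if l.2.x0 = true ∧ l.1.qx = some false then
    t.1.h 1 = l.1.h 1 ∧ t.1.h 3 = l.1.h 3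
  else t.1.h = l.1.h

/-- Rules of a single tile. -/
structure PFacts (t : Cell) : Prop where
  qx_some : t.1.qx.isSome = (t.2.x0 || t.2.cut || t.2.rowQ)
  qy_some : t.1.qy.isSome = (t.2.isY0 || t.2.colQ || t.2.halfRow)
  y0_xk : t.2.isY0 = true → t.2.xk = true
  live_wire : t.1.live = true → t.2.isWire = true
  live_low : t.2.isWire = true → t.2.cy.yhC.val < AF → t.1.live = true
  live_scan : t.2.isWire = true → t.2.isScan = true → AF ≤ t.2.cy.yhC.val →
    t.1.live = t.1.carry.isSome
  h_zero : t.1.live = false → ∀ j, t.1.h j = false
  vb_zero : t.2.bundle = false → ∀ j, t.1.vb j = false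
  diag : t.2.isWire = true → t.2.bundle = true → t.2.cm.diag = true → t.1.h = t.1.vb
  v_zone : t.2.zone = false → t.1.v = false

/-- Rules of a tile and the tile below it. -/
structure VFacts (t d : Cell) : Prop where
  xk : t.2.isY0 = false → t.2.xk = ((d.2.xk && d.2.band) || t.1.live)
  qx : (t.2.x0 || t.2.cut) = true → t.1.qx = d.1.qx
  qy : t.2.colQ = true → t.1.qy = if t.2.isY0 then d.1.qy.map (fun b => !b) else d.1.qy
  vb : t.2.bundle = true → VbRule t d
  carry : t.1.carry = carryNext t.2 d.2 d.1.carry t.1.h
  eq : t.1.eq = eqNext t.2 d.2 d.1.eq d.1.h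
  look : t.1.look = lookNext t.2 d.2 d.1.look d.1.h

/-- Rules of a tile and the tile on its left. -/
structure HFacts (t l : Cell) : Prop where
  live : t.1.live = l.1.live
  qx : t.2.rowQ = true → t.1.qx = if t.2.x0 then l.1.qx.map (fun b => !b) else l.1.qx
  qy : (t.2.isY0 || t.2.halfRow) = true → t.1.qy = l.1.qy
  h : t.2.isWire = true → HRule t l

end Vale.Agent.P196.Tile
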