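import Vale.Agent.P196.Tile.Facts.Fields

/-!
P196, module D: the rules of a child and the child on its left.
-/

namespace Vale.Agent.P196.Tile

open ChildRules

/-- How the bits seen by a child and by the child on its left are related. -/
def HBits (X : ℕ) (b b' : ℕ → Quad) : Prop :=
  (X ≠ 0 → b = b') ∧ (X = 0 → ∀ k, b k 1 = b' k 0 ∧ b k 3 = b' k 2)

theorem childH {L : ℕ} (hL : L₀ ≤ L) (τ : ℕ → Bool) {b b' : ℕ → Quad} (X Y : ℕ)
    (hX : X < side L) (hb : HBits X b b') :
    HFacts (cell L (child L τ b X Y)) (cell L (child L τ b' (pred' L X) Y)) where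
  live := rfl
  qx hr := by
    simp only [claims_rowQ] at hr
    simp only [child_qx, if_pos (Or.inr (Or.inr hr))]
    rcases pred_cases hX with ⟨h0, h1, -, h3⟩ | ⟨h0, h1, -, h3⟩ | ⟨h1, -, -, h3⟩
    · rw [if_pos ((claims_x0 L τ b X Y).2 h1)]
      have : ¬ H L ≤ X := by have := H_pos L; omega
      simp [this, h3]
    · rw [if_pos ((claims_x0 L τ b X Y).2 h1)]
      subst h0
      simp [not_le.2 h3]
    · rw [if_neg fun h => by rw [claims_x0] at h; omega]
      simp [h3]
  qy hr := by
    simp only [Bool.or_eq_true, claims_y0, claims_halfRow] at hr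
    simp only [child_qy]
    have hr' : ∀ x : ℕ, Y % H L = 0 ∨ (IsCol L x 2 ∧ lo L x = 0) ∨ IsHalfRow L (Y % H L) := by
      intro x; tauto
    rw [if_pos (hr' _), if_pos (hr' _)]
  h hw := by
    simp only [claims_wire] at hw
    have hH := H_pos L
    have hM := eight_lt_M hL
    have hcutH : cutX L < H L - 1 := by
      have := M_le_sq L
      have h8 : M L ^ 2 * 8 ≤ M L ^ 2 * M L := Nat.mul_le_mul_left _ (by omega)
      unfold cutX H
      rw [pow_succ]
      omega
    simp only [HRule, claims_x0, claims_cut, cut_iff hL]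
    by_cases hk : hi L (Y % H L) ≤ lastK L
    swap
    · have e1 : ∀ j, (child L τ b X Y).fin.h j = false := fun j => by
        rw [child_h, if_neg fun h => hk h.2.1]
      have e2 : ∀ j, (child L τ b' (pred' L X) Y).fin.h j = false := fun j => by
        rw [child_h, if_neg fun h => hk h.2.1]
      split_ifs
      · funext j; fin_cases j <;> simp [e1, e2]
      · funext j; fin_cases j <;> simp [e1, e2]
      · simp [e1, e2]
      · funext j; simp [e1, e2]
    rcases pred_cases hX with ⟨h0, h1, h2, h3⟩ | ⟨h0, h1, h2, h3⟩ | ⟨h1, h2, -, h3⟩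
    · have hf : ¬ H L ≤ X := by omega
      rw [if_pos ⟨h1, by rw [child_qx, if_pos (Or.inl h1)]; simp [hf]⟩]
      obtain ⟨-, hb⟩ := hb
      funext j
      fin_cases j <;> simp [child_h, hw, hk, h1, h2, h3, hf, hcutH, hb h0, show H L - 1 ≠ 0 by omega]
    · have hb' := hb.1 (by omega)
      subst hb'
      subst h0
      have hne : ¬ H L ≤ pred' L (H L) := by omega
      rw [if_neg fun h => by
        rw [child_qx, if_pos (Or.inl h1)] at h
        simp at h]
      rw [if_neg fun h => by omega, if_neg fun h => by omega]
      funext j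
      simp [child_h, hw, hk, h1, h2, hne, show H L - 1 ≠ 0 by omega]
    · have hX0 : X ≠ 0 := fun h => by rw [h, Nat.zero_mod] at h1; omega
      have hb' := hb.1 hX0
      subst hb'
      rw [if_neg fun h => by omega]
      by_cases hq : H L ≤ X
      · have hq' := h3.1 hq
        by_cases hc : pred' L X % H L = cutX L
        · rw [if_pos ⟨hc, by
            rw [child_qx, if_pos (Or.inr (Or.inl ((cut_iff hL).2 hc)))]; simp [hq']⟩]
          funext j
          fin_cases j <;> simp [child_h, hw, hk, hq, hq', hc, ← h2, show cutX L ≠ 0 by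
            unfold cutX; have := M_pos L; omega]
        · rw [if_neg fun h => hc h.1, if_neg fun h => by
            rw [child_qx, if_pos (Or.inl h.1)] at h
            simp [hq'] at h]
          have e : cutX L < X % H L ↔ cutX L < pred' L X % H L := by omega
          funext j
          simp [child_h, hw, hk, hq, hq', e]
      · have hq' : ¬ H L ≤ pred' L X := fun h => hq (h3.2 h)
        rw [if_neg fun h => by
          rw [child_qx, if_pos (Or.inr (Or.inl ((cut_iff hL).2 h.1)))] at h
          simp [hq'] at h]
        by_cases hx' : pred' L X % H L = 0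
        · rw [if_pos ⟨hx', by rw [child_qx, if_pos (Or.inl hx')]; simp [hq']⟩]
          simp [child_h, hw, hk, hq, hq', hx', show X % H L ≠ 0 by omega]
        · rw [if_neg fun h => hx' h.1]
          funext j
          simp [child_h, hw, hk, hq, hq', hx', show X % H L ≠ 0 by omega]

end Vale.Agent.P196.Tile
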