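import Vale.Agent.P196.Tile.Preds

/-!
P196, module D: how the row counts change from one row to the next.
-/

namespace Vale.Agent.P196.Tile

open ChildRules

lemma M_le_sq (L : ℕ) : M L ≤ M L ^ 2 := Nat.le_self_pow (by norm_num) _

lemma two_le_M' {L : ℕ} (hL : L₀ ≤ L) : 2 ≤ M L := two_le_M hL

/-- The wire rows are those congruent to `M` modulo `M^2`. -/
lemma isWire_iff {L : ℕ} (hL : L₀ ≤ L) (y : ℕ) :
    IsWire L y ↔ M L ≤ y ∧ (y - M L) % M L ^ 2 = 0 := by
  have hM := two_le_M hL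
  have hsq : 0 < M L ^ 2 := pow_pos (M_pos L) 2
  have e1 : y % M L ^ 2 = y % M L + M L * (y / M L % M L) := by rw [sq, Nat.mod_mul]
  have hlt : M L < M L ^ 2 := by
    rw [sq]
    exact lt_mul_of_one_lt_left (by omega) (by omega)
  constructor
  · intro h
    refine ⟨M_le_of_wire h, ?_⟩
    have h1 : y % M L = 0 := h.1
    have h2 : y / M L % M L = 1 := h.2
    rw [h1, h2, mul_one, Nat.zero_add] at e1
    have := Nat.div_add_mod y (M L ^ 2)
    rw [e1] at this
    rw [show y - M L = M L ^ 2 * (y / M L ^ 2) from by omega, Nat.mul_mod_right]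
  · rintro ⟨h0, h⟩
    obtain ⟨t, ht⟩ := Nat.dvd_of_mod_eq_zero h
    have hy2 : y = M L + M L ^ 2 * t := by omega
    have e2 : y % M L ^ 2 = M L := by
      rw [hy2, Nat.add_mul_mod_self_left, Nat.mod_eq_of_lt hlt]
    have e3 : y % M L = 0 := by
      rw [hy2, sq, mul_assoc, Nat.add_mul_mod_self_left, Nat.mod_self]
    refine ⟨e3, ?_⟩
    show y / M L % M L = 1
    rw [e2, e3, Nat.zero_add] at e1
    have h4 : M L * 1 = M L * (y / M L % M L) := by rw [mul_one]; exact e1
    exact (Nat.eq_of_mul_eq_mul_left (by omega) h4).symm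

/-- The row after a wire row, and the row of a wire. -/
lemma rows_succ {L : ℕ} (hL : L₀ ≤ L) (y : ℕ) :
    (IsWire L y → ¬ IsWire L (y + 1)) ∧
    (IsWire L y → rowIdx L y = hi L y ∧ rowsBelow L y = hi L y ∧ M L ≤ y ∧
      rowIdx L (y + 1) = hi L y ∧ rowsBelow L (y + 1) = hi L y + 1) ∧
    (IsWire L (y + 1) → rowsBelow L (y + 1) = rowsBelow L y ∧ rowIdx L (y + 1) = hi L (y + 1) ∧
      (hi L (y + 1) = 0 → y < M L) ∧
      (0 < hi L (y + 1) → M L ≤ y ∧ rowIdx L y + 1 = hi L (y + 1))) ∧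
    (¬ IsWire L y → ¬ IsWire L (y + 1) → rowsBelow L (y + 1) = rowsBelow L y ∧
      (M L ≤ y + 1 ↔ M L ≤ y) ∧ rowIdx L (y + 1) = rowIdx L y) := by
  have hM := two_le_M hL
  have hsq : 0 < M L ^ 2 := pow_pos (M_pos L) 2
  have hlt : M L < M L ^ 2 := by
    rw [sq]
    exact lt_mul_of_one_lt_left (by omega) (by omega)
  have hw := isWire_iff hL y
  have hw' := isWire_iff hL (y + 1)
  have hM1 : IsWire L (M L) := (isWire_iff hL _).2 ⟨le_rfl, by simp⟩
  refine ⟨fun h h' => ?_, fun h => ?_, fun h => ?_, fun h h' => ?_⟩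
  · obtain ⟨t, ht⟩ := Nat.dvd_of_mod_eq_zero (hw.1 h).2
    obtain ⟨-, h2⟩ := hw'.1 h'
    have := (hw.1 h).1
    rw [show y + 1 - M L = 1 + M L ^ 2 * t from by omega, Nat.add_mul_mod_self_left,
      Nat.mod_eq_of_lt (by omega)] at h2
    omega
  · have h1 := (hw.1 h).1
    have hi1 := rowIdx_wire h
    have hn : ¬ IsWire L (y + 1) := fun h' => by
      obtain ⟨t, ht⟩ := Nat.dvd_of_mod_eq_zero (hw.1 h).2
      obtain ⟨-, h2⟩ := hw'.1 h'
      rw [show y + 1 - M L = 1 + M L ^ 2 * t from by omega, Nat.add_mul_mod_self_left,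
        Nat.mod_eq_of_lt (by omega)] at h2
      omega
    have e : rowIdx L (y + 1) = rowIdx L y := by
      obtain ⟨t, ht⟩ := Nat.dvd_of_mod_eq_zero (hw.1 h).2
      unfold rowIdx
      rw [show y + 1 - M L = 1 + M L ^ 2 * t from by omega, ht, Nat.add_mul_div_left _ _ hsq,
        Nat.div_eq_of_lt (show 1 < M L ^ 2 by omega), Nat.mul_div_cancel_left _ hsq, Nat.zero_add]
    refine ⟨hi1, ?_, h1, e.trans hi1, ?_⟩
    · rw [rowsBelow, if_neg (by omega), if_pos h, hi1]
    · rw [rowsBelow, if_neg (by omega), if_neg hn, e, hi1]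
  · have hi1 := rowIdx_wire h
    have hn : ¬ IsWire L y := fun h' => by
      obtain ⟨t, ht⟩ := Nat.dvd_of_mod_eq_zero (hw.1 h').2
      obtain ⟨-, h2⟩ := hw'.1 h
      have := (hw.1 h').1
      rw [show y + 1 - M L = 1 + M L ^ 2 * t from by omega, Nat.add_mul_mod_self_left,
        Nat.mod_eq_of_lt (by omega)] at h2
      omega
    obtain ⟨h1, h2⟩ := hw'.1 h
    obtain ⟨t, ht⟩ := Nat.dvd_of_mod_eq_zero h2
    have et : hi L (y + 1) = t := by
      rw [← hi1, rowIdx, ht, Nat.mul_div_cancel_left _ hsq]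
    have step : 0 < t → M L ≤ y ∧ rowIdx L y + 1 = t := by
      intro h0
      obtain ⟨t', rfl⟩ : ∃ t', t = t' + 1 := ⟨t - 1, by omega⟩
      rw [mul_add, mul_one] at ht
      refine ⟨by omega, ?_⟩
      unfold rowIdx
      rw [show y - M L = (M L ^ 2 - 1) + M L ^ 2 * t' from by omega,
        Nat.add_mul_div_left _ _ hsq, Nat.div_eq_of_lt (by omega), Nat.zero_add]
    refine ⟨?_, hi1, fun h0 => ?_, fun h0 => ?_⟩
    · rw [rowsBelow, if_neg (by omega), if_pos h, hi1, et]
      rcases Nat.eq_zero_or_pos t with h0 | h0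
      · subst h0
        rw [rowsBelow, if_pos (by simp at ht; omega)]
      · obtain ⟨a, b⟩ := step h0
        rw [rowsBelow, if_neg (by omega), if_neg hn, b]
    · rw [et] at h0
      subst h0
      simp at ht
      omega
    · rw [et] at h0 ⊢
      exact step h0
  · have hiff : M L ≤ y + 1 ↔ M L ≤ y := by
      refine ⟨fun h1 => ?_, fun h1 => by omega⟩
      by_contra hc
      exact h' ((show y + 1 = M L by omega) ▸ hM1)
    have e : rowIdx L (y + 1) = rowIdx L y := by
      unfold rowIdx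
      by_cases h1 : M L ≤ y
      · have h2 : (y + 1 - M L) % M L ^ 2 ≠ 0 := fun h0 => h' (hw'.2 ⟨by omega, h0⟩)
        rw [show y + 1 - M L = (y - M L) + 1 from by omega] at h2 ⊢
        rw [Nat.succ_div, if_neg fun hd => h2 (Nat.mod_eq_zero_of_dvd hd)]
        rfl
      · rw [show y + 1 - M L = 0 from by omega, show y - M L = 0 from by omega]
    refine ⟨?_, hiff, e⟩
    by_cases h1 : M L ≤ y
    · simp only [rowsBelow]
      rw [if_neg (show ¬ y + 1 < M L by omega), if_neg (show ¬ y < M L by omega), if_neg h',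
        if_neg h, e]
    · simp only [rowsBelow]
      rw [if_pos (show y + 1 < M L by omega), if_pos (show y < M L by omega)]

/-- Row `0` and the row below it. -/
lemma rows_zero {L : ℕ} (hL : L₀ ≤ L) :
    ¬ IsWire L 0 ∧ ¬ IsWire L (H L - 1) ∧ M L ≤ H L - 1 ∧ lastK L < rowIdx L (H L - 1) ∧
      lastK L < hi L (H L - 1) ∧ rowsBelow L 0 = 0 ∧ ¬ M L ≤ 0 := by
  have hM := M_pos L
  have h50 : 50000 ≤ L := le_L₀.trans hL
  have h2 : L - 10 < 2 ^ (L - 10) := Nat.lt_two_pow_self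
  have hbig : M L = 1024 * 2 ^ (L - 10) := by
    rw [M, show (1024 : ℕ) = 2 ^ 10 by norm_num, ← pow_add, Nat.add_sub_cancel' (by omega)]
  have hA : A = 1024 := rfl
  have hk : lastK L + 3 < M L := by unfold lastK; omega
  have hsq : 0 < M L ^ 2 := pow_pos hM 2
  have hH : H L = M L * M L ^ 2 := by rw [H, ← pow_succ']
  have hle := M_le_sq L
  have h3 : M L ^ 2 * 3 ≤ M L ^ 2 * M L := Nat.mul_le_mul_left _ (by omega)
  have hH1 : M L ≤ H L - 1 := by rw [hH, Nat.mul_comm]; omega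
  have hrow : lastK L < rowIdx L (H L - 1) := by
    unfold rowIdx
    rw [Nat.lt_iff_add_one_le, Nat.le_div_iff_mul_le hsq, hH]
    have h4 : (lastK L + 3) * M L ^ 2 ≤ M L * M L ^ 2 := Nat.mul_le_mul_right _ (by omega)
    rw [Nat.add_mul] at h4
    rw [Nat.add_mul, one_mul]
    omega
  refine ⟨?_, ?_, hH1, hrow, lt_of_lt_of_le hrow (Nat.div_le_div_right (Nat.sub_le _ _)),
    by rw [rowsBelow, if_pos hM], by omega⟩
  · exact fun h => absurd (M_le_of_wire h) (by omega)
  · intro h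
    obtain ⟨-, h4⟩ := (isWire_iff hL _).1 h
    obtain ⟨t, ht⟩ := Nat.dvd_of_mod_eq_zero h4
    have h5 : H L = (M L + 1) + M L ^ 2 * t := by omega
    have h6 : H L % M L = 1 % M L := by
      rw [h5, sq, mul_assoc, Nat.add_mul_mod_self_left, Nat.add_mod_left]
    rw [Nat.mod_eq_zero_of_dvd (M_dvd_H L) , Nat.mod_eq_of_lt (by omega)] at h6
    omega

end Vale.Agent.P196.Tile
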