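import Vale.Agent.P196.Tile.Facts.VertAll
import Vale.Agent.P196.Tile.Facts.Horiz

/-!
P196, module D: every signature made of children obeys the transition rules.
-/

namespace Vale.Agent.P196.Tile

open ChildRules

/-- All the rules of a window. -/
structure WFacts (s : Sig) : Prop where
  p : ∀ j, PFacts (s j)
  v₀ : VFacts (s 0) (s 2)
  v₁ : VFacts (s 1) (s 3)
  h₀ : HFacts (s 0) (s 1)
  h₂ : HFacts (s 2) (s 3)

theorem shape_facts {s : Sig} (h : Shape s) : WFacts s := by
  obtain ⟨L, τ, b, X, Y, hL, hX, hY, rfl⟩ := h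
  refine ⟨fun j => childP hL τ _ _ _, childV hL hY ?_, childV hL hY ?_, childH hL τ _ _ hX ?_,
    childH hL τ _ _ hX ?_⟩
  all_goals
    first
    | (refine ⟨fun h => ?_, fun h k => ?_⟩
       · simp at h
         funext k j; fin_cases j <;> simp [guestBits, h]
       · by_cases hx : X = 0 <;> by_cases hy : Y = 0 <;> simp_all [guestBits])

end Vale.Agent.P196.Tile
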