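import Vale.Agent.P196.Tile.Facts.Fields

/-!
P196, module D: one step of the scanning column and of the table columns.
-/

namespace Vale.Agent.P196.Tile

open ChildRules

lemma scan_low (b : ℕ → Quad) : ∀ k < AF, scan b k = Carry.init := by
  intro k
  induction k with
  | zero => intro h; simp [scan, Carry.step, h]
  | succ k ih =>
    intro h
    show (scan b k).step (k + 1) b = _
    rw [ih (by omega), Carry.step, if_pos h]

lemma stepRow_eq (c : Carry) (b : ℕ → Quad) (k : ℕ) :
    c.stepRow (min k YB) (k % 8) (b k) = c.step k b := by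
  unfold Carry.stepRow Carry.step
  have hYB : A < YB := by unfold YB; omega
  have hA : A = 1024 := rfl
  have hF : AF = 900 := rfl
  by_cases h1 : k < AF
  · rw [if_pos (by omega), if_pos h1]
  rw [if_neg (by omega), if_neg h1]
  by_cases h2 : k < A - 2
  · rw [if_pos (by omega), if_pos h2, show min k YB = k by omega]
  rw [if_neg (by omega), if_neg h2]
  by_cases h3 : k < A
  · rw [if_pos (by omega), if_pos h3]
  rw [if_neg (by omega), if_neg h3]
  refine congrArg (fun a => Carry.readNum c a (b k)) ?_
  exact Fin.ext (show k % 8 % 8 = (k - A) % 8 by omega)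

lemma scan_AF (b : ℕ → Quad) : scan b AF = Carry.init.stepRow (min AF YB) (AF % 8) (b AF) := by
  rw [stepRow_eq]
  obtain ⟨a, ha⟩ : ∃ a, AF = a + 1 := ⟨AF - 1, by norm_num [AF]⟩
  rw [ha]
  show (scan b a).step (a + 1) b = _
  rw [scan_low b a (by omega)]

lemma scan_succ (b : ℕ → Quad) (k : ℕ) :
    scan b (k + 1) = (scan b k).stepRow (min (k + 1) YB) ((k + 1) % 8) (b (k + 1)) := by
  rw [stepRow_eq]
  rfl

/-- The claimed bits of the column are the ones compared on row `k`. -/
lemma zoneMatch_iff {L x k : ℕ} (hk : k < A) (b : ℕ → Quad) (hh : Quad) (hq : hh = b k) :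
    zoneMatch L x k b = decide (hh = fun j : Fin 4 =>
      decide (min k YB < A) && (lo L x).testBit (4 * min k YB + j.val + 2)) := by
  have hYB : A < YB := by unfold YB; omega
  subst hq
  unfold zoneMatch
  rw [decide_eq_decide, funext_iff]
  have e : min k YB = k := by omega
  simp [e, hk]

lemma eq_step {L x n : ℕ} (hn : n < A) (b : ℕ → Quad) :
    decide (∀ k' < n + 1, zoneMatch L x k' b = true) =
      ((decide (∀ k' < n, zoneMatch L x k' b = true)) && zoneMatch L x n b) := by
  have _ := hn
  rw [Bool.eq_iff_iff, Bool.and_eq_true, decide_eq_true_iff, decide_eq_true_iff]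
  exact ⟨fun h => ⟨fun k hk => h k (by omega), h n (by omega)⟩,
    fun h k hk => by rcases Nat.lt_succ_iff_lt_or_eq.1 hk with h' | rfl
                     · exact h.1 k h'
                     · exact h.2⟩

lemma lookAt_zero (L x : ℕ) (b : ℕ → Quad) : lookAt L x 0 b = ⟨0, false, true⟩ := by
  simp [lookAt]

lemma lookAt_succ {L x n : ℕ} (hn : n < xlRow (B - 1)) (b : ℕ → Quad) :
    lookAt L x (n + 1) b = (lookAt L x n b).stepRow (min n YB) (n % 8) (b n 0)
      (decide (A ≤ min n YB) && decide (lidx (min n YB) < B) &&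
        (lo L x).testBit (lidx (min n YB))) := by
  have hmin : min n YB = n := by
    unfold YB at *
    unfold xlRow at hn
    omega
  rw [hmin]
  have hA : A = 1024 := rfl
  have hF : AF = 900 := rfl
  simp only [lookAt, Look.stepRow, Look.mk.injEq]
  refine ⟨Fin.ext ?_, ?_, ?_⟩
  · simp only
    rw [Nat.mod_add_mod]
    refine congrArg (fun s : ℕ => s % 2 ^ (A - 2 - AF)) ?_
    by_cases h : AF ≤ n ∧ n < A - 2
    · rw [show min (n + 1 - AF) (A - 2 - AF) = (n - AF) + 1 by omega,
        show min (n - AF) (A - 2 - AF) = n - AF by omega, Finset.sum_range_succ,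
        show AF + (n - AF) = n by omega]
      simp [h.1, h.2]
    · rw [if_neg fun h' => h ⟨h'.1, h'.2.1⟩,
        show min (n + 1 - AF) (A - 2 - AF) = min (n - AF) (A - 2 - AF) by omega]
      exact (Nat.add_zero _).symm
  · rcases Nat.eq_zero_or_pos n with rfl | hp
    · simp
    · simp [hp, Nat.pos_iff_ne_zero.1 hp]
  · rw [Bool.eq_iff_iff]
    simp only [decide_eq_true_iff, Bool.and_eq_true, Bool.or_eq_true, Bool.not_eq_true',
      Bool.and_eq_false_iff, decide_eq_false_iff_not, beq_iff_eq]
    constructor
    · intro h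
      refine ⟨fun i hi hk => h i hi (by omega), ?_⟩
      by_cases hc : A ≤ n ∧ n % 8 % 8 = 0
      · refine Or.inr ?_
        obtain ⟨i, rfl⟩ : ∃ i, n = xlRow i := ⟨(n - A) / 8, by unfold xlRow; omega⟩
        have hi : i < B := by unfold xlRow at hn; omega
        have hl : lidx (xlRow i) = i := by unfold lidx xlRow; omega
        rw [hl, h i hi (by omega)]
        simp [hc.1, hi]
      · exact Or.inl (by tauto)
    · rintro ⟨h1, h2⟩ i hi hk
      rcases Nat.lt_succ_iff_lt_or_eq.1 hk with h' | h'
      · exact h1 i hi h'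
      · have hl : lidx (xlRow i) = i := by unfold lidx xlRow; omega
        have hc : A ≤ n ∧ n % 8 % 8 = 0 := by rw [← h']; unfold xlRow; omega
        rcases h2 with h2 | h2
        · exact absurd hc fun hc => by rcases h2 with h2 | h2 <;> [exact h2 hc.1; exact h2 hc.2]
        · rw [h', h2]
          rw [h'] at hl
          simp [hc.1, hi, hl]

end Vale.Agent.P196.Tile
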