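import Vale.Agent.P196.Tile.Facts.Steps

/-!
P196, module D: the rules of a child and the child below it.
-/

namespace Vale.Agent.P196.Tile

open ChildRules

/-- How the bits seen by a child and by the child below it are related. -/
def VBits (Y : ℕ) (b b' : ℕ → Quad) : Prop :=
  (Y ≠ 0 → b = b') ∧ (Y = 0 → ∀ k, b k 2 = b' k 0 ∧ b k 3 = b' k 1)

section

variable {L : ℕ} {τ : ℕ → Bool} {b b' : ℕ → Quad} {X Y : ℕ}

/-- Either the bottom row, or the row after the row below. -/
lemma row_cases (hY : Y < side L) (hb : VBits Y b b') :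
    (Y % H L = 0 ∧ pred' L Y % H L = H L - 1) ∨
    (∃ y, pred' L Y % H L = y ∧ Y % H L = y + 1 ∧ b = b' ∧ (H L ≤ Y ↔ H L ≤ pred' L Y)) := by
  rcases pred_cases hY with ⟨-, h1, h2, -⟩ | ⟨-, h1, h2, -⟩ | ⟨h1, h2, -, h3⟩
  · exact Or.inl ⟨h1, h2⟩
  · exact Or.inl ⟨h1, h2⟩
  · exact Or.inr ⟨_, rfl, h2.symm, hb.1 (fun h => by rw [h, Nat.zero_mod] at h1; omega), h3⟩

lemma childV_carry (hL : L₀ ≤ L) (hY : Y < side L) (hb : VBits Y b b') :
    (child L τ b X Y).fin.carry = carryNext (claims L (child L τ b X Y))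
      (claims L (child L τ b' X (pred' L Y))) (child L τ b' X (pred' L Y)).fin.carry
      (child L τ b X Y).fin.h := by
  unfold carryNext
  by_cases hs : (claims L (child L τ b X Y)).isScan = true
  swap
  · rw [if_neg hs, child_carry, if_neg fun h => hs ((claims_scan L τ b X Y).2 ⟨h.1, h.2.1⟩)]
  rw [if_pos hs]
  rw [claims_scan] at hs
  obtain ⟨hn0, -, -, hrow, -, -, hM0⟩ := rows_zero hL
  rcases row_cases hY hb with ⟨h1, h2⟩ | ⟨y, h2, h1, rfl, -⟩
  · rw [child_carry, h1, if_neg fun h => hM0 h.2.2.1,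
      if_neg fun h => by rw [claims_wire, h1] at h; exact hn0 h,
      if_pos ((claims_y0 L τ b X Y).2 h1)]
  obtain ⟨-, hr1, hr2, hr3⟩ := rows_succ hL y
  by_cases hw : IsWire L (y + 1)
  swap
  · rw [if_neg fun h => by rw [claims_wire, h1] at h; exact hw h,
      if_neg fun h => by rw [claims_y0, h1] at h; omega, child_carry, child_carry, h1, h2]
    by_cases hy : IsWire L y
    · obtain ⟨e1, -, e3, e4, -⟩ := hr1 hy
      simp only [e1, e4, e3, show M L ≤ y + 1 by omega]
    · obtain ⟨-, e2, e3⟩ := hr3 hy hw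
      simp only [e2, e3]
  rw [if_pos ((claims_wire L τ b X Y).2 (h1 ▸ hw))]
  obtain ⟨-, e, h0k, hpk⟩ := hr2 hw
  simp only [claims_yhC, h1, claims_yhMod]
  set k := hi L (y + 1) with hk
  have hMy : M L ≤ y + 1 := M_le_of_wire hw
  have hA : A = 1024 := rfl
  have hF : AF = 900 := rfl
  have hYB : A < YB := by unfold YB; omega
  have hh : k ≤ lastK L → (child L τ b X Y).fin.h = b k := fun hkl => by
    funext j
    rw [child_h, h1, if_pos]
    refine ⟨hw, hkl, fun h0 => ?_, fun _ hc => ?_⟩
    · have := hs.1.2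
      simp [h0, mid] at this
    · exfalso
      have := (col0_iff (L := L) (x := X % H L) (m := 3) (by have := eight_lt_M hL; omega)).1 hs
      unfold cutX at hc
      omega
  by_cases hk1 : k < AF
  · rw [if_pos (by omega), child_carry, if_neg]
    rw [h1, e]
    omega
  rw [if_neg (by omega)]
  by_cases hk2 : k = AF
  · rw [if_pos (by omega), child_carry, if_pos ⟨hs.1, hs.2, by omega, by rw [h1, e]; omega,
      by rw [h1, e]; unfold lastK; omega⟩, h1, e, hh (by unfold lastK; omega), hk2]
    have := scan_AF b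
    rw [show min AF YB = AF by omega] at this
    rw [this]
  rw [if_neg (by omega)]
  obtain ⟨hMy', ek⟩ := hpk (by omega)
  have hu : ∀ (Z r : ℕ) (b₁ : ℕ → Quad), Z % H L = r → M L ≤ r → AF ≤ rowIdx L r →
      (A ≤ rowIdx L r → (claims L (child L τ b₁ X Z)).cm.u0 =
        decide (L ≤ (rowIdx L r - A) / 8)) := fun Z r b₁ hZ hr _ hA' => by
    have hu1 : (child L τ b₁ X Z).u = 2 ^ ((rowIdx L r - A) / 8) % M L := by
      simp only [child, hZ]
      rw [if_pos ⟨hs.1, hs.2, hr, hA'⟩]
    simp only [claims, hu1, decide_eq_decide]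
    generalize (rowIdx L r - A) / 8 = i
    unfold M
    constructor
    · intro h
      by_contra hc
      rw [Nat.mod_eq_of_lt (Nat.pow_lt_pow_right (by norm_num) (by omega))] at h
      exact absurd h (Nat.pow_pos (by norm_num)).ne'
    · exact fun h => Nat.mod_eq_zero_of_dvd (pow_dvd_pow 2 h)
  have hend : endPhase (claims L (child L τ b X Y)) (claims L (child L τ b X (pred' L Y))) = true ↔
      k % 8 = 0 ∧ A < k ∧ L < (k - A) / 8 := by
    simp only [endPhase, Bool.and_eq_true, decide_eq_true_iff, claims_yhC, claims_yhMod, h1, ← hk,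
      and_assoc]
    constructor
    · rintro ⟨a, c, d, e'⟩
      rw [hu Y (y + 1) b h1 hMy (by omega) (by omega), e, decide_eq_true_iff] at d
      rw [hu (pred' L Y) y b h2 hMy' (by omega) (by omega), decide_eq_true_iff] at e'
      omega
    · rintro ⟨a, c, d⟩
      rw [hu Y (y + 1) b h1 hMy (by omega) (by omega), e,
        hu (pred' L Y) y b h2 hMy' (by omega) (by omega), decide_eq_true_iff, decide_eq_true_iff]
      omega
  by_cases hE : k % 8 = 0 ∧ A < k ∧ L < (k - A) / 8
  · rw [if_pos (hend.2 hE), child_carry, if_neg]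
    rw [h1, e]
    unfold lastK
    omega
  rw [if_neg fun h => hE (hend.1 h), child_carry, child_carry, h1, h2, e]
  by_cases hl : k ≤ lastK L
  · rw [if_pos ⟨hs.1, hs.2, hMy, by omega, hl⟩, if_pos ⟨hs.1, hs.2, hMy', by omega, by omega⟩,
      Option.map_some, hh hl]
    have := scan_succ b (rowIdx L y)
    rw [ek] at this
    rw [this]
  · rw [if_neg fun h => hl h.2.2.2.2, if_neg, Option.map_none]
    unfold lastK at hl ⊢
    omega

lemma childV_vb (hL : L₀ ≤ L) (hY : Y < side L) (hb : VBits Y b b')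
    (hbd : IsBundle L (X % H L)) :
    VbRule (cell L (child L τ b X Y)) (cell L (child L τ b' X (pred' L Y))) := by
  have hH := H_pos L
  simp only [VbRule, claims_y0, claims_halfRow, halfRow_iff hL]
  have hM := eight_lt_M hL
  have hhalfH : halfY L < H L - 1 := by
    have h4 : (M L / 2 + 1) * M L ^ 2 ≤ M L * M L ^ 2 := Nat.mul_le_mul_right _ (by omega)
    have h5 : 4 * M L ≤ M L ^ 2 := by rw [sq]; exact Nat.mul_le_mul_right _ (by omega)
    rw [Nat.add_mul, one_mul] at h4
    rw [halfY, show H L = M L * M L ^ 2 by rw [H, ← pow_succ']]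
    omega
  by_cases hk : lo L (X % H L) / 2 ≤ lastK L
  swap
  · have e1 : ∀ j, (child L τ b X Y).fin.vb j = false := fun j => by
      rw [child_vb, if_neg fun h => hk h.2.1]
    have e2 : ∀ j, (child L τ b' X (pred' L Y)).fin.vb j = false := fun j => by
      rw [child_vb, if_neg fun h => hk h.2.1]
    split_ifs
    · funext j; fin_cases j <;> simp [e1, e2]
    · funext j; fin_cases j <;> simp [e1, e2]
    · simp [e1, e2]
    · funext j; simp [e1, e2]
  rcases pred_cases hY with ⟨h0, h1, h2, h3⟩ | ⟨h0, h1, h2, h3⟩ | ⟨h1, h2, -, h3⟩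
  · have hf : ¬ H L ≤ Y := by omega
    rw [if_pos ⟨h1, by rw [child_qy, if_pos (Or.inl h1)]; simp [hf]⟩]
    funext j
    fin_cases j <;> simp [child_vb, hbd, hk, h1, h2, h3, hf, hhalfH, hb.2 h0,
      show H L - 1 ≠ 0 by omega]
  · have hb' := hb.1 (by omega)
    subst hb'
    subst h0
    have hne : ¬ H L ≤ pred' L (H L) := by omega
    rw [if_neg fun h => by
      rw [child_qy, if_pos (Or.inl h1)] at h
      simp at h]
    rw [if_neg fun h => by omega, if_neg fun h => by omega]
    funext j
    simp [child_vb, hbd, hk, h1, h2, hne, show H L - 1 ≠ 0 by omega]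
  · have hY0 : Y ≠ 0 := fun h => by rw [h, Nat.zero_mod] at h1; omega
    have hb' := hb.1 hY0
    subst hb'
    rw [if_neg fun h => by omega]
    by_cases hq : H L ≤ Y
    · have hq' := h3.1 hq
      by_cases hc : pred' L Y % H L = halfY L
      · rw [if_pos ⟨hc, by
          rw [child_qy, if_pos (Or.inr (Or.inr ((halfRow_iff hL).2 hc)))]; simp [hq']⟩]
        funext j
        fin_cases j <;> simp [child_vb, hbd, hk, hq, hq', hc, ← h2, show halfY L ≠ 0 by
          have := M_le_halfY (L := L); omega]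
      · rw [if_neg fun h => hc h.1, if_neg fun h => by
          rw [child_qy, if_pos (Or.inl h.1)] at h
          simp [hq'] at h]
        have e : halfY L < Y % H L ↔ halfY L < pred' L Y % H L := by omega
        funext j
        simp [child_vb, hbd, hk, hq, hq', e]
    · have hq' : ¬ H L ≤ pred' L Y := fun h => hq (h3.2 h)
      rw [if_neg fun h => by
        rw [child_qy, if_pos (Or.inr (Or.inr ((halfRow_iff hL).2 h.1)))] at h
        simp [hq'] at h]
      by_cases hx' : pred' L Y % H L = 0
      · rw [if_pos ⟨hx', by rw [child_qy, if_pos (Or.inl hx')]; simp [hq']⟩]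
        simp [child_vb, hbd, hk, hq, hq', hx', show Y % H L ≠ 0 by omega]
      · rw [if_neg fun h => hx' h.1]
        funext j
        simp [child_vb, hbd, hk, hq, hq', hx', show Y % H L ≠ 0 by omega]

end

end Vale.Agent.P196.Tile
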